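import Vale.Agent.P243.Round.Cylinders

/-!
# P243: cylinders covering an ellipsoid

The image of the density `1 / √(1 - ‖z‖²)` under an injective linear map `T` gives every line mass
at most `π L` when `‖T z‖ ≤ L ‖z‖`, so cylinders covering the ellipsoid `c + T B` have base areas
summing to at least `π |det T| / L`.
-/

noncomputable section

open MeasureTheory Set Metric Real
open scoped RealInnerProductSpace ENNReal

namespace Vale.Agent.P243.Round

/-- A line with an arbitrary velocity meets the unit ball in mass at most `π` over its speed. -/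
lemma lintegral_velocity_le (p w : V3) (hw : w ≠ 0) :
    ∫⁻ t : ℝ, dens 1 (p + t • w) ≤ ENNReal.ofReal (π / ‖w‖) := by
  have hn : 0 < ‖w‖ := norm_pos_iff.2 hw
  obtain ⟨Φ, hΦ⟩ := exists_axis (u := ‖w‖⁻¹ • w) (norm_smul_inv_norm hw)
  obtain ⟨⟨y, s⟩, hq⟩ := Φ.exists_pt p
  have hpt : ∀ t, p + t • w = Φ.pt (y, s + ‖w‖ * t) := fun t => by
    rw [← hq]
    simp only [Axis.pt, hΦ, smul_smul, add_assoc]
    congr 1
    rw [← add_smul]
    congr 1
    field_simp
  have hf : Measurable fun t : ℝ => dens 1 (Φ.pt (y, s + t)) :=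
    (measurable_dens 1).comp (Φ.continuous_pt.comp (by fun_prop)).measurable
  have hscale : ∫⁻ t : ℝ, dens 1 (Φ.pt (y, s + ‖w‖ * t)) =
      ENNReal.ofReal ‖w‖⁻¹ * ∫⁻ t : ℝ, dens 1 (Φ.pt (y, s + t)) := by
    rw [← lintegral_map hf (measurable_const_mul ‖w‖), Real.map_volume_mul_left hn.ne',
      lintegral_smul_measure, abs_of_pos (inv_pos.2 hn), smul_eq_mul]
  simp only [hpt]
  rw [hscale, lintegral_add_left_eq_self (fun t => dens 1 (Φ.pt (y, t))) s,
    lintegral_line Φ one_pos, div_eq_inv_mul, ENNReal.ofReal_mul (inv_nonneg.2 hn.le)]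
  exact mul_le_mul_right (indicator_le_self' (fun _ _ => zero_le) _) _

/-- Cylinders covering an ellipsoid have base areas summing to at least `π |det T| / L`, where `L`
bounds the longest semiaxis. -/
theorem ellipsoid_covering (T : V3 ≃ₗ[ℝ] V3) (c : V3) {L : ℝ} (hL : ∀ z, ‖T z‖ ≤ L * ‖z‖)
    {m : ℕ} (Φ : Fin m → Axis) (B : Fin m → Set V2)
    (hcov : (fun z => c + T z) '' ball 0 1 ⊆ ⋃ i, {x | ∃ y ∈ B i, ∃ t, x = (Φ i).pt (y, t)}) :
    ENNReal.ofReal (π * |LinearMap.det T.toLinearMap| / L) ≤ ∑ i, volume (B i) := by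
  have hL0 : 0 < L := by
    have h := hL (EuclideanSpace.single (0 : Fin 3) (1 : ℝ))
    rw [PiLp.norm_single, norm_one, mul_one] at h
    refine lt_of_lt_of_le (norm_pos_iff.2 fun h0 => ?_) h
    simpa using (T.map_eq_zero_iff.1 h0)
  set R : V3 → ℝ≥0∞ := fun x => dens 1 (T.symm (x - c)) with hR
  have hRm : Measurable R := (measurable_dens 1).comp
    ((T.symm.toContinuousLinearEquiv.continuous).comp (by fun_prop)).measurable
  -- the mass
  have hmass : ∫⁻ x, R x =
      ENNReal.ofReal |LinearMap.det T.toLinearMap| * (ENNReal.ofReal π * ENNReal.ofReal π) := by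
    have hd : LinearMap.det T.symm.toLinearMap ≠ 0 := T.symm.isUnit_det'.ne_zero
    calc ∫⁻ x, R x = ∫⁻ x, dens 1 (T.symm x) :=
          lintegral_sub_right_eq_self (fun x => dens 1 (T.symm x)) c
      _ = ∫⁻ x, dens 1 x ∂(Measure.map T.symm.toLinearMap volume) :=
          (lintegral_map (measurable_dens 1)
            T.symm.toContinuousLinearEquiv.continuous.measurable).symm
      _ = _ := by
        rw [Measure.map_linearMap_addHaar_eq_smul_addHaar volume hd, lintegral_smul_measure,
          lintegral_dens one_pos, smul_eq_mul, one_pow, mul_one]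
        congr 2
        have := LinearEquiv.det_coe_symm T
        rw [this, inv_inv]
  -- each cylinder
  set cy : Fin m → Set V3 := fun i =>
    (fun x => (WithLp.ofLp ((Φ i).iso.symm x)).1) ⁻¹' toMeasurable volume (B i) with hcy
  have hiff : ∀ i y t, (Φ i).pt (y, t) ∈ cy i ↔ y ∈ toMeasurable volume (B i) := fun i y t => by
    rw [hcy, show (Φ i).pt (y, t) = (Φ i).iso (WithLp.toLp 2 (y, t)) from rfl]
    simp
  have hcym : ∀ i, MeasurableSet (cy i) := fun i =>
    (measurableSet_toMeasurable _ _).preimage
      (by fun_prop : Measurable fun x => (WithLp.ofLp ((Φ i).iso.symm x)).1)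
  have hone : ∀ i, ∫⁻ x, (cy i).indicator R x ≤ ENNReal.ofReal (π * L) * volume (B i) := by
    intro i
    rw [lintegral_chart (Φ i) (hRm.indicator (hcym i)), ← measure_toMeasurable (B i),
      ← lintegral_indicator_const (measurableSet_toMeasurable volume (B i))]
    refine lintegral_mono fun y => ?_
    by_cases hy : y ∈ toMeasurable volume (B i)
    · rw [indicator_of_mem hy]
      refine (lintegral_mono fun t => indicator_le_self _ _ _).trans ?_
      have hline : ∀ t, R ((Φ i).pt (y, t)) =
          dens 1 (T.symm ((Φ i).e y - c) + t • T.symm (Φ i).u) := fun t => by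
        simp only [hR, Axis.pt, map_sub, map_add, map_smul]
        congr 1
        abel
      simp only [hline]
      have hu0 : T.symm (Φ i).u ≠ 0 := fun h => by
        have := (Φ i).norm_u
        rw [T.symm.map_eq_zero_iff.1 h, norm_zero] at this
        exact zero_ne_one this
      refine (lintegral_velocity_le _ _ hu0).trans (ENNReal.ofReal_le_ofReal ?_)
      have hn : 0 < ‖T.symm (Φ i).u‖ := norm_pos_iff.2 hu0
      rw [div_le_iff₀ hn, mul_assoc]
      refine le_mul_of_one_le_right Real.pi_pos.le ?_
      have h := hL (T.symm (Φ i).u)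
      rwa [T.apply_symm_apply, (Φ i).norm_u] at h
    · rw [indicator_of_notMem hy]
      exact ((lintegral_congr fun t => indicator_of_notMem (fun h => hy ((hiff i y t).1 h)) _).trans
        lintegral_zero).le
  have hsum : ∫⁻ x, R x ≤ ∑ i, ∫⁻ x, (cy i).indicator R x := by
    rw [← lintegral_finsetSum _ fun i _ => hRm.indicator (hcym i)]
    refine lintegral_mono fun x => ?_
    by_cases hx : T.symm (x - c) ∈ ball (0 : V3) 1
    · obtain ⟨i, y, hy, t, hxy⟩ := mem_iUnion.1 (hcov (show x ∈ (fun z => c + T z) '' ball 0 1 from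
        ⟨_, hx, by simp⟩))
      have hmem : x ∈ cy i := by
        rw [hxy, hiff]; exact subset_toMeasurable _ _ hy
      exact le_trans (le_of_eq (indicator_of_mem hmem R).symm)
        (Finset.single_le_sum (f := fun i => (cy i).indicator R x)
          (fun _ _ => zero_le) (Finset.mem_univ i))
    · rw [show R x = 0 from indicator_of_notMem hx _]
      exact zero_le
  have h := (hmass ▸ hsum).trans (Finset.sum_le_sum fun i _ => hone i)
  rw [← Finset.mul_sum] at h
  have e : ENNReal.ofReal |LinearMap.det T.toLinearMap| * (ENNReal.ofReal π * ENNReal.ofReal π) =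
      ENNReal.ofReal (π * L) * ENNReal.ofReal (π * |LinearMap.det T.toLinearMap| / L) := by
    rw [← ENNReal.ofReal_mul Real.pi_pos.le, ← ENNReal.ofReal_mul (abs_nonneg _),
      ← ENNReal.ofReal_mul (by positivity)]
    congr 1
    field_simp
  rw [e] at h
  exact (ENNReal.mul_le_mul_iff_right
    (ENNReal.ofReal_pos.2 (by positivity)).ne' ENNReal.ofReal_ne_top).1 h

end Vale.Agent.P243.Round
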