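import Vale.Agent.P243.Round.Sweep

/-!
# P243: the shadow of two pairs of supporting slabs

A body inside two slabs `|⟪u, T⁻¹ (x - c)⟫| ≤ 1`, `|⟪v, T⁻¹ (x - c)⟫| ≤ 1` has along `T (u × v)` a
shadow inside a parallelogram of area `4 |det T| / ‖T (u × v)‖`.
-/

noncomputable section

open MeasureTheory Set Metric
open scoped RealInnerProductSpace ENNReal

namespace Vale.Agent.P243.Round

/-- The cross product in space. -/
def cross3 (u v : V3) : V3 :=
  !₂[u 1 * v 2 - u 2 * v 1, u 2 * v 0 - u 0 * v 2, u 0 * v 1 - u 1 * v 0]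

lemma inner_three (x y : V3) : ⟪x, y⟫ = x 0 * y 0 + x 1 * y 1 + x 2 * y 2 := by
  rw [PiLp.inner_apply, Fin.sum_univ_three]
  simp [mul_comm]

lemma inner_cross_left (u v : V3) : ⟪u, cross3 u v⟫ = 0 := by
  simp [inner_three, cross3]; ring

lemma inner_cross_right (u v : V3) : ⟪v, cross3 u v⟫ = 0 := by
  simp [inner_three, cross3]; ring

lemma norm_cross_sq (u v : V3) :
    ‖cross3 u v‖ ^ 2 = ‖u‖ ^ 2 * ‖v‖ ^ 2 - ⟪u, v⟫ ^ 2 := by
  simp only [← real_inner_self_eq_norm_sq, inner_three]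
  simp [cross3]
  ring

/-- Coordinates along `u`, `v` and their cross product. -/
def triple (u v : V3) : V3 →ₗ[ℝ] V3 where
  toFun z := !₂[⟪u, z⟫, ⟪v, z⟫, ⟪cross3 u v, z⟫]
  map_add' a b := by ext i; fin_cases i <;> simp [inner_add_right]
  map_smul' a b := by ext i; fin_cases i <;> simp [real_inner_smul_right]

lemma det_triple (u v : V3) : LinearMap.det (triple u v) = ‖cross3 u v‖ ^ 2 := by
  set b := (EuclideanSpace.basisFun (Fin 3) ℝ).toBasis with hb
  rw [← LinearMap.det_toMatrix b, Matrix.det_fin_three, ← real_inner_self_eq_norm_sq, inner_three]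
  simp [LinearMap.toMatrix_apply, hb, triple, inner_three, cross3]
  ring

lemma volume_cube : volume {z : V3 | ∀ i, |z i| ≤ 1} = ENNReal.ofReal 8 := by
  have h : {z : V3 | ∀ i, |z i| ≤ 1} = (WithLp.ofLp : V3 → Fin 3 → ℝ) ⁻¹' Icc (fun _ => -1)
      (fun _ => 1) := by
    ext z
    simp [Pi.le_def, abs_le, forall_and]
  rw [h, (PiLp.volume_preserving_ofLp (Fin 3)).measure_preimage measurableSet_Icc.nullMeasurableSet,
    Real.volume_Icc_pi, Fin.prod_univ_three, ← ENNReal.ofReal_mul (by norm_num),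
    ← ENNReal.ofReal_mul (by norm_num)]
  norm_num

/-- A body in two pairs of slabs has a small shadow along `T (u × v)`. -/
theorem slab_pair_shadow (T : V3 ≃ₗ[ℝ] V3) (c u v : V3) {K : Set V3}
    (hu : ∀ x ∈ K, |⟪u, T.symm (x - c)⟫| ≤ 1) (hv : ∀ x ∈ K, |⟪v, T.symm (x - c)⟫| ≤ 1)
    (hn : cross3 u v ≠ 0) :
    ∃ Ψ : Axis, volume (Ψ.shadow K) ≤
      ENNReal.ofReal (4 * |LinearMap.det T.toLinearMap| / ‖T (cross3 u v)‖) := by
  set n := cross3 u v with hndef
  have hw0 : T n ≠ 0 := fun h => hn (T.map_eq_zero_iff.1 h)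
  have hw : 0 < ‖T n‖ := norm_pos_iff.2 hw0
  have hN : 0 < ‖n‖ ^ 2 := pow_pos (norm_pos_iff.2 hn) 2
  obtain ⟨Ψ, hΨ⟩ := exists_axis (u := ‖T n‖⁻¹ • T n) (norm_smul_inv_norm hw0)
  refine ⟨Ψ, ?_⟩
  set G : V3 →ₗ[ℝ] V3 := triple u v ∘ₗ T.symm.toLinearMap with hG
  set S : Set V3 := (fun x => x - c) ⁻¹' (G ⁻¹' {z : V3 | ∀ i, |z i| ≤ 1}) with hS
  have hGc : Continuous G := G.continuous_of_finiteDimensional
  have hGd : LinearMap.det G = ‖n‖ ^ 2 * (LinearMap.det T.toLinearMap)⁻¹ := by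
    rw [hG, LinearMap.det_comp, det_triple, LinearEquiv.det_coe_symm]
  have hSv : volume S = ENNReal.ofReal (|LinearMap.det T.toLinearMap| / ‖n‖ ^ 2 * 8) := by
    have : LinearMap.det G ≠ 0 := by
      rw [hGd]; exact mul_ne_zero hN.ne' (inv_ne_zero T.isUnit_det'.ne_zero)
    rw [hS, show (fun x : V3 => x - c) = (fun x => x + -c) from funext fun x => sub_eq_add_neg x c,
      measure_preimage_add_right, Measure.addHaar_preimage_linearMap _ this, volume_cube,
      hGd, mul_inv, inv_inv, abs_mul, abs_inv, abs_of_pos hN, ← ENNReal.ofReal_mul (by positivity)]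
    congr 1
    ring
  have hclosed : IsClosed S := by
    refine IsClosed.preimage (by fun_prop) (IsClosed.preimage hGc ?_)
    have : {z : V3 | ∀ i, |z i| ≤ 1} = ⋂ i, {z : V3 | |z i| ≤ 1} := by ext; simp
    rw [this]
    exact isClosed_iInter fun i => isClosed_le (by fun_prop) continuous_const
  set P : Set V2 :=
    {y | |⟪u, T.symm (Ψ.pt (y, 0) - c)⟫| ≤ 1 ∧ |⟪v, T.symm (Ψ.pt (y, 0) - c)⟫| ≤ 1} with hP
  have hPm : MeasurableSet P := by
    have hc : Continuous fun y => T.symm (Ψ.pt (y, 0) - c) :=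
      T.symm.toContinuousLinearEquiv.continuous.comp
        ((Ψ.continuous_pt.comp (by fun_prop)).sub continuous_const)
    have h1 : ∀ w : V3, IsClosed {y | |⟪w, T.symm (Ψ.pt (y, 0) - c)⟫| ≤ 1} := fun w =>
      isClosed_le ((continuous_const.inner hc).abs) continuous_const
    exact ((h1 u).inter (h1 v)).measurableSet
  have hline : ∀ y t, T.symm (Ψ.pt (y, t) - c) =
      T.symm (Ψ.pt (y, 0) - c) + (t * ‖T n‖⁻¹) • n := fun y t => by
    rw [show Ψ.pt (y, t) - c = (Ψ.pt (y, 0) - c) + (t * ‖T n‖⁻¹) • T n by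
      simp [Axis.pt, hΨ, smul_smul]; abel]
    rw [map_add, map_smul, T.symm_apply_apply]
  have hconst : ∀ w, ⟪w, n⟫ = 0 → ∀ y t,
      ⟪w, T.symm (Ψ.pt (y, t) - c)⟫ = ⟪w, T.symm (Ψ.pt (y, 0) - c)⟫ := fun w hw y t => by
    rw [hline, inner_add_right, real_inner_smul_right, hw, mul_zero, add_zero]
  have hshadow : Ψ.shadow K ⊆ P := by
    rintro y ⟨t, ht⟩
    refine ⟨?_, ?_⟩
    · rw [← hconst u (inner_cross_left u v) y t]; exact hu _ ht
    · rw [← hconst v (inner_cross_right u v) y t]; exact hv _ ht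
  refine (measure_mono hshadow).trans ?_
  set ℓ := 2 * ‖T n‖ / ‖n‖ ^ 2 with hℓ
  have hℓ0 : 0 < ℓ := by positivity
  have key : ENNReal.ofReal ℓ * volume P ≤ volume S := by
    rw [← Ψ.measurePreserving_pt.measure_preimage hclosed.measurableSet.nullMeasurableSet,
      Measure.prod_apply (hclosed.measurableSet.preimage Ψ.continuous_pt.measurable),
      ← lintegral_indicator_const hPm]
    refine lintegral_mono fun y => ?_
    by_cases hy : y ∈ P
    · rw [indicator_of_mem hy]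
      set β := ⟪n, T.symm (Ψ.pt (y, 0) - c)⟫ with hβ
      set a := (-1 - β) * ‖T n‖ / ‖n‖ ^ 2 with ha
      have hsub : Icc a (a + ℓ) ⊆ Prod.mk y ⁻¹' (Ψ.pt ⁻¹' S) := by
        intro t ht i
        show |(triple u v (T.symm (Ψ.pt (y, t) - c))) i| ≤ 1
        fin_cases i
        · show |⟪u, _⟫| ≤ 1
          rw [hconst u (inner_cross_left u v) y t]; exact hy.1
        · show |⟪v, _⟫| ≤ 1
          rw [hconst v (inner_cross_right u v) y t]; exact hy.2
        · show |⟪n, _⟫| ≤ 1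
          rw [hline, inner_add_right, real_inner_smul_right, real_inner_self_eq_norm_sq, ← hβ,
            abs_le]
          have h1 := ht.1
          have h2 := ht.2
          rw [ha, div_le_iff₀ hN] at h1
          rw [ha, hℓ, ← add_div, le_div_iff₀ hN] at h2
          have e : t * ‖T n‖⁻¹ * ‖n‖ ^ 2 * ‖T n‖ = t * ‖n‖ ^ 2 := by field_simp
          constructor <;> nlinarith
      refine le_trans ?_ (measure_mono hsub)
      rw [Real.volume_Icc, add_sub_cancel_left]
    · rw [indicator_of_notMem hy]; exact zero_le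
  rw [hSv] at key
  refine (ENNReal.mul_le_mul_iff_right (ENNReal.ofReal_pos.2 hℓ0).ne' ENNReal.ofReal_ne_top).1
    (key.trans_eq ?_)
  rw [← ENNReal.ofReal_mul hℓ0.le, hℓ]
  congr 1
  field_simp
  ring

end Vale.Agent.P243.Round
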